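import Vale.Agent.P275PG.Defs
import Vale.Agent.P275Z.Top
import Vale.Agent.P275S.Calc

/-!
# P275, block PG: the blocks of the support estimate
-/

set_option linter.unusedSectionVars false

open scoped Topology Matrix.Norms.Operator ContDiff Polynomial Real
open Set Filter Metric Bornology

noncomputable section

namespace Vale.Agent.P275PG

open Vale.Agent.P275GC Vale.Agent.P275MO Vale.Agent.P275Z
open Vale.Agent.P275NA (Fm Cy Mn)
open Vale.Agent.P275DL (Loop Sys Rk)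
open Vale.Agent.P275ST (XB Base ZarLE deg dimR)
open P275S (H Hd pb Nice Stk)
open P275CL (Onto)
open P275PA (OntoF)

/-- pull back of classes along a continuous map -/
def pbc {Y Y' : Type} [TopologicalSpace Y] [TopologicalSpace Y'] (f : C(Y', Y)) :
    H ℂ (TopCat.of Y) →ₐ[ℂ] H ℂ (TopCat.of Y') := pb (TopCat.ofHom f)

/-- the cohomology vanishes above `N` -/
def VanA (Y : Type) [TopologicalSpace Y] (N : ℤ) : Prop :=
  ∀ m, N < m → ∀ v ∈ Hd ℂ (TopCat.of Y) m, v = 0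

/-- the inclusion of a subtype -/
def val {Y : Type} [TopologicalSpace Y] (p : Y → Prop) : C({y // p y}, Y) :=
  ⟨Subtype.val, continuous_subtype_val⟩

/-- loops of self maps of `F`, whose tori pair with `e` by the numbers `Q` -/
structure Loops (F : Type) [TopologicalSpace F] (e : H ℂ (TopCat.of F)) {L : Type} (Q : L → L → ℂ)
    (κ : H ℂ (TopCat.of (Circle × Circle))) where
  φ : L → C(Circle × F, F)
  one : ∀ l y, φ l (1, y) = y
  num : ∀ l l' y (ψ : C(Circle × Circle, F)), (∀ s t, ψ (s, t) = φ l' (t, φ l (s, y))) →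
    pbc ψ e = Q l l' • κ

/-- **LOOP**: the Clifford trick on a space -/
def LOOP : Prop := ∀ (F : Type) [TopologicalSpace F] [Nice (TopCat.of F)] (e : H ℂ (TopCat.of F))
  (L : Type) (Q : L → L → ℂ) (κ : H ℂ (TopCat.of (Circle × Circle))) (s : ℕ) (N : ℤ),
  e ∈ Hd ℂ _ 2 → κ ≠ 0 → (∀ l l', Q l l' = -Q l' l) → Nonempty (Loops F e Q κ) → Rk Q s →
  VanA F N → Onto (Hd ℂ (TopCat.of F)) (LinearMap.mulLeft ℂ e) (N - s)

/-- **FIB**: proper base change -/
def FIB : Prop := ∀ (Y V : Type) [TopologicalSpace Y] [TopologicalSpace V] [Nice (TopCat.of Y)]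
  [Nice (TopCat.of V)] (h : C(Y, V)) (e : H ℂ (TopCat.of Y)) (a : V) (c : ℤ), IsProperMap h →
  Onto (Hd ℂ (TopCat.of {y // h y = a})) (LinearMap.mulLeft ℂ (pbc (val fun y => h y = a) e)) c →
  OntoF (Stk ℂ (X := TopCat.of V) a) (mulK (TopCat.ofHom h) e) c

/-- **FD**: the cohomological dimension of the fibres -/
def FD : Prop := ∀ (Y V : Type) [TopologicalSpace Y] [Nice (TopCat.of Y)] [AddCommGroup V]
  [Module ℂ V] [TopologicalSpace V] [IsTopologicalAddGroup V] [ContinuousSMul ℂ V] [T2Space V]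
  [FiniteDimensional ℂ V] (h : C(Y, V)) (R : ℕ), IsProperMap h → Nonempty (Hg h) →
  VanA Y (2 * R) → ∀ a, VanA {y // h y = a} (2 * R)

/-- **VAN**: the vanishing of the cohomology of the character variety above the middle degree -/
def VAN : Prop := ∀ (g n : ℕ) (d : ℤ) (K : P275ST.Cpt g n d) (e : H ℂ (TX g n d)),
  e ∈ Hd ℂ _ 2 → Chl K e → VanA (XB g n d) (2 * dimR g n)

section curve

variable {C : Type} [TopologicalSpace C] {n : ℕ}

/-- a meromorphic function whose only pole is `p` -/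
def MerP (A : At C) (p : C) : Prop := ∃ f : C → ℂ,
  (∀ i, ∀ z ∈ ball (0 : ℂ) A.R, (A.e i).symm z ≠ p → AnalyticAt ℂ (fun w => f ((A.e i).symm w)) z) ∧
  Tendsto f (𝓝[≠] p) (cobounded ℂ)

/-- the class `e` pairs with the tori of twists by the Chern-Weil numbers -/
def NumP {A : At C} {l : Cy A ℂ} {τ : Ty n} (e : H ℂ (TopCat.of (Mod A l τ)))
    (κ : H ℂ (TopCat.of (Circle × Circle))) : Prop :=
  ∀ (x : C) (tw : Twd A n x → M0 A l τ x → M0 A l τ x), IsTw tw →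
  ∀ (Q Q' : Twd A n x) (γ γ' : Fin n → Fm A ℂ) (y : M0 A l τ x) (z : Ob A l τ) (r : ℝ) (h1 : 1 < r)
    (h2 : r ≤ A.R), z.pt = y.1 → Good (A.res r h1 h2) l z.1 →
    Lg (A.res r h1 h2) z.1 (Bq Q.1 z.1.a) (pl γ z.1.a) →
    Lg (A.res r h1 h2) z.1 (Bq Q'.1 z.1.a) (pl γ' z.1.a) →
    ∀ ψ : C(Circle × Circle, Mod A l τ), (∀ s t : ℝ, ψ (Circle.exp (2 * π * s),
      Circle.exp (2 * π * t)) = (tw ((s : ℂ) • Q + (t : ℂ) • Q') y).1) →
    pbc ψ e = pairing A (Bq Q.1 z.1.a) (pl γ z.1.a) (Bq Q'.1 z.1.a) (pl γ' z.1.a) • κ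

end curve

/-- **DELTAP**: the delta inequality, with loops which are trivial near the point `p` -/
def DELTAP : Prop := ∀ (C : Type) [TopologicalSpace C] [T2Space C] [ConnectedSpace C] (A : At C)
  (p : C) (V : Type) [AddCommGroup V] [Module ℂ V] [FiniteDimensional ℂ V] (n : ℕ)
  (D : Sys A V n), 0 < n → MerP A p → ∀ t : ℕ, ∃ Z : Set V, ZarLE Z (t - 1) ∧
    ∀ v ∉ Z, Rk (fun L L' : {L : Loop A (D.P v) // Tx p L} => L.1.Q L'.1) t

/-- the moduli space of Higgs bundles as a model of the character variety over the base -/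
structure Mdl (S : Sit) (h : C(XB S.g S.n (deg S.D), Base S.C S.n)) where
  A : At S.C
  l : Cy A ℂ
  std : Std A l S.n (deg S.D)
  τ : Ty S.n
  hH : τ.H = ⊤
  hq : τ.q = ⊥
  ν : M0 A l τ S.p ≃ₜ XB S.g S.n (deg S.D)
  D : Sys A (Base S.C S.n) S.n
  chr : ∀ y, Chr y.1 (D.P (h (ν y)))
  scal : ∀ (v : Base S.C S.n) (s : ℂ), ∃ v', ∀ k < S.n, ∀ i w,
    D.c k v' i w = s ^ (S.n - k) * D.c k v i w
  mer : MerP A S.p

/-- the class `e` is a universal class of the model -/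
def Mdl.Num {S : Sit} {h : C(XB S.g S.n (deg S.D), Base S.C S.n)} (M : Mdl S h)
    (e : H ℂ (TX S.g S.n (deg S.D))) : Prop :=
  ∃ (e' : H ℂ (TopCat.of (Mod M.A M.l M.τ))) (κ : H ℂ (TopCat.of (Circle × Circle))), κ ≠ 0 ∧
    NumP e' κ ∧ pbc (⟨M.ν, M.ν.continuous⟩ : C(M0 M.A M.l M.τ S.p, XB S.g S.n (deg S.D))) e =
      pbc (val fun y : Mod M.A M.l M.τ => y.lam = 0 ∧ y.x = S.p) e'

/-- **SUPP** -/
def SUPP : Prop := ∀ (S : Sit) (h : C(XB S.g S.n (deg S.D), Base S.C S.n)) (M : Mdl S h)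
  (K : P275ST.Cpt S.g S.n (deg S.D)) (e : H ℂ (TX S.g S.n (deg S.D))), IsProperMap h →
  FiniteDimensional ℂ (Base S.C S.n) → KUR S.n M.A M.l → NICE S.n M.A M.l → e ∈ Hd ℂ _ 2 →
  M.Num e → Chl K e → Supp h e

end Vale.Agent.P275PG
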