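import Vale.Agent.P275PG.Blk
import Vale.Agent.P275FS.Fd
import Vale.Agent.P275PA.Wt
import Vale.Agent.P275PA.Tr

/-!
# P275, block PG: holomorphic charts and the scaling on the space of Higgs bundles
-/

set_option linter.unusedSectionVars false
set_option backward.isDefEq.respectTransparency false

open scoped Topology
open Set Filter CategoryTheory

noncomputable section

namespace Vale.Agent.P275PG

open Vale.Agent.P275GC Vale.Agent.P275MO Vale.Agent.P275Z
open Vale.Agent.P275NA (Fm Cy Mn)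
open Vale.Agent.P275DL (Sys)
open P275S P275FS

/-- holomorphic charts on `Y` in which `h` is holomorphic, and a flow which covers a scaling -/
structure Hg2 {Y V : Type} [TopologicalSpace Y] [AddCommGroup V] [Module ℂ V] [TopologicalSpace V]
    (h : Y → V) where
  H : HAt Y
  cov : ∀ y, ∃ n, ∃ e ∈ H.S n, y ∈ e.source
  hol : ∀ (φ : V →ₗ[ℂ] ℂ) n, ∀ e ∈ H.S n, ∀ y ∈ e.source,
    DifferentiableAt ℂ (fun z => φ (h (e.symm z))) (e y)
  φ : ℝ → Y → Y
  Ψ : ℝ → V → V
  scal : Scal h 0 φ Ψ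

/-- **CX2**: the complex structure on the space of Higgs bundles -/
def CX2 {C : Type} [TopologicalSpace C] (A : At C) (l : Cy A ℂ) (n : ℕ) : Prop :=
  ∀ (d : ℤ), Std A l n d → KUR n A l → ∀ (τ : Ty n) (x : C)
  (V : Type) [AddCommGroup V] [Module ℂ V] [TopologicalSpace V] [IsTopologicalAddGroup V]
  [ContinuousSMul ℂ V] [T2Space V] [FiniteDimensional ℂ V] (D : Sys A V n) (h : M0 A l τ x → V),
  τ.q = ⊥ → (∀ y, Chr y.1 (D.P (h y))) →
  (∀ (v : V) (s : ℂ), ∃ v', ∀ k < n, ∀ i w, D.c k v' i w = s ^ (n - k) * D.c k v i w) →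
  Nonempty (Hg2 h)

theorem van : VAN := fun _ _ _ K _ he hK _ hm _ hv => P275PA.end_zero K.hom he hK.1 hm hv

theorem vanA_iff {X : TopCat.{0}} {m : ℤ} : (∀ v ∈ Hd ℂ X m, v = 0) ↔
    ∀ s : sec ((I ℂ X).X m) ⊤, app ((I ℂ X).d m (m + 1)) ⊤ s = 0 →
      ∃ t, app ((I ℂ X).d (m - 1) m) ⊤ t = s := by
  constructor
  · intro h s hs
    obtain ⟨g, hg, e⟩ := KG.exists_lift (ιI ℂ X) (injC_I ℂ X) (gcl_mem s hs)
    rw [← gcl_eq_zero_iff s hs (m - 1) (by simp), ← e, h g hg, Limits.comp_zero]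
  · intro h v hv
    obtain ⟨c, hc, e⟩ := exists_gcl (F := I ℂ X) (KG.comp_mem_deg (zero_add m) unit_mem hv)
    refine unit_cancel (injC_I ℂ X) (e.symm.trans ?_)
    rw [Limits.comp_zero, gcl_eq_zero_iff c hc (m - 1) (by simp)]
    exact h c hc

/-- the cohomological dimension of the fibres -/
theorem fd2 (htop : P275FD.TOP) {Y V : Type} [TopologicalSpace Y] [Nice (TopCat.of Y)]
    [AddCommGroup V] [Module ℂ V] [TopologicalSpace V] [T2Space V] [FiniteDimensional ℂ V]
    {h : Y → V} {R : ℕ} (hp : IsProperMap h) (G : Hg2 h) (hv : VanA Y (2 * R)) (a : V)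
    [Nice (TopCat.of {y // h y = a})] : VanA {y // h y = a} (2 * R) := by
  intro m hm
  let b := Module.finBasis ℂ V
  have h1 := fd (X := TopCat.of Y) htop hp G.scal G.H (fun y _ => G.cov y) (fun i v => b.coord i v)
    (fun _ _ e => b.ext_elem e) (fun n e he y hy i => G.hol _ n e he y hy)
    (fun j hj => vanA_iff.1 (hv j hj))
  have : CompactSpace (TopCat.of {y // h y = a}) :=
    isCompact_iff_compactSpace.1 (hp.isCompact_preimage (isCompact_singleton (x := a)))
  exact vanA_iff.2 (gam_I_compact ℂ (locFin_fibre h1 a).subtype (by exact_mod_cast hm))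

end Vale.Agent.P275PG
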