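import Vale.Agent.P275MO.Props
import Vale.Agent.P275DL.Defs
import Vale.Agent.P275LM.Flow
import Vale.Agent.P281Z.Defs

/-!
# P275, block PG: twists of Higgs objects, loops on the Hitchin fibres. Definitions and blocks.
-/

set_option linter.unusedSectionVars false

open scoped Topology Matrix.Norms.Operator ContDiff ComplexConjugate Polynomial Manifold
open Set Filter Metric Matrix

noncomputable section

namespace Vale.Agent.P275PG

open Vale.Agent.P275GC Vale.Agent.P275MO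
open Vale.Agent.P275NA (Fm Cy Mn db dz)
open Vale.Agent.P275DL (Loop Sys)
open Vale.Agent.P275LM (Flo)
open Vale.Agent.P272.K (Cm)

variable {C : Type} [TopologicalSpace C] {n : ℕ}

/-- `u` vanishes near the point `x` -/
def Zx (A : At C) (x : C) {F : Type} (u : Fm A F) (c : F) : Prop :=
  ∀ i, x ∈ (A.e i).source → ∀ᶠ w in 𝓝 (A.e i x), u i w = c

/-- twist data: smooth `(0,1)`-forms with values in `K^{-k}` which vanish near `x` -/
def Twd (A : At C) (n : ℕ) (x : C) : Submodule ℂ (Fin n → Fm A ℂ) where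
  carrier := {Q | ∀ k, A.Sm ∞ (Q k) ∧ Zx A x (Q k) 0 ∧ ∀ i j, ∀ w ∈ A.O i j,
    Q k i w * A.d i j w ^ (k : ℕ) = conj (A.d i j w) * Q k j (A.tr i j w)}
  add_mem' := fun {a b} ha hb k => ⟨fun i => ((ha k).1 i).add ((hb k).1 i), fun i hi => by
      filter_upwards [(ha k).2.1 i hi, (hb k).2.1 i hi] with w h1 h2
      simp [h1, h2], fun i j w hw => by
      simp only [Pi.add_apply, add_mul, mul_add, (ha k).2.2 i j w hw, (hb k).2.2 i j w hw]⟩
  zero_mem' := fun k => ⟨fun _ => contDiffOn_const, fun _ _ => .of_forall fun _ => rfl,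
    fun _ _ _ _ => by simp⟩
  smul_mem' := fun c a ha k => ⟨fun i => ((ha k).1 i).const_smul c, fun i hi => by
      filter_upwards [(ha k).2.1 i hi] with w h1
      simp [h1], fun i j w hw => by
      simp only [Pi.smul_apply, smul_eq_mul, mul_assoc, (ha k).2.2 i j w hw]
      ring⟩

/-- a polynomial in the Higgs field -/
def pl {A : At C} (Q : Fin n → Fm A ℂ) (a : Fm A (Mn n)) : Fm A (Mn n) :=
  fun i w => ∑ k, Q k i w • a i w ^ (k : ℕ)

/-- its trace free part -/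
def Bq {A : At C} (Q : Fin n → Fm A ℂ) (a : Fm A (Mn n)) : Fm A (Mn n) :=
  fun i w => tf (pl Q a i w)

/-- frames of determinant one which are holomorphic for `db + B` -/
structure Frm (A : At C) (B F : Fm A (Mn n)) : Prop where
  sm : A.Sm ∞ F
  det : ∀ i, ∀ w ∈ ball (0 : ℂ) A.R, (F i w).det = 1
  eq : ∀ i, ∀ w ∈ ball (0 : ℂ) A.R, db (F i) w + B i w * F i w = 0

/-- the twisted object -/
def twz (A : At C) (z : Dat C A.N n) (F : Fm A (Mn n)) : Dat C A.N n :=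
  dol A 0 z.x z.g z.a F z.σ z.R

variable (A : At C) (l : Cy A ℂ) (τ : Ty n) (x : C)

/-- the Higgs objects with pole `x` -/
abbrev M0 : Type := {y : Mod A l τ // y.lam = 0 ∧ y.x = x}

variable {A l τ x}

/-- `P` is the characteristic polynomial of the Higgs field -/
def Chr (y : Mod A l τ) (P : Fm A ℂ[X]) : Prop :=
  ∀ (z : Ob A l τ) (r : ℝ) (h1 : 1 < r) (h2 : r ≤ A.R), z.pt = y → Good (A.res r h1 h2) l z.1 →
    ∀ i, ∀ w ∈ off (A.res r h1 h2) z.1.x i, (z.1.a i w).charpoly = P i w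

/-- the twists of the Higgs objects by commuting `(0,1)`-forms -/
structure IsTw (tw : Twd A n x → M0 A l τ x → M0 A l τ x) : Prop where
  spec : ∀ (Q : Twd A n x) (y : M0 A l τ x) (z : Ob A l τ) (r : ℝ) (h1 : 1 < r) (h2 : r ≤ A.R)
    (F : Fm A (Mn n)), z.pt = y.1 → Good (A.res r h1 h2) l z.1 →
    Frm (A.res r h1 h2) (Bq Q.1 z.1.a) F → Good (A.res r h1 h2) l (twz A z.1 F) ∧
      ∃ h : IsOb A l τ.q (twz A z.1 F), (tw Q y).1 = Ob.pt ⟨_, h⟩
  fam : ∀ (m : ℕ) (Q : Fin m → Twd A n x) (z : Ob A l τ) (r r' : ℝ) (h1 : 1 < r') (h : r' < r)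
    (h2 : r ≤ A.R) (s₀ : Fin m → ℝ), z.1.lam = 0 → z.1.x = x →
    Good (A.res r (h1.trans h) h2) l z.1 →
    ∃ V ∈ 𝓝 s₀, ∃ F : (Fin m → ℝ) → Fm A (Mn n),
      (∀ i, ContinuousOn (fun p : (Fin m → ℝ) × ℂ => F p.1 i p.2) (V ×ˢ ball 0 r')) ∧
      (∀ s ∈ V, Frm (A.res r' h1 (h.le.trans h2)) (Bq (∑ j, (s j : ℂ) • Q j).1 z.1.a) (F s)) ∧
      FamOn (A.res r' h1 (h.le.trans h2)) l (fun s => twz A z.1 (F s)) V
  cont : ∀ (m : ℕ) (Q : Fin m → Twd A n x),
    Continuous fun p : (Fin m → ℝ) × M0 A l τ x => tw (∑ j, (p.1 j : ℂ) • Q j) p.2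
  zero : ∀ y, tw 0 y = y
  add : ∀ Q Q' y, tw (Q + Q') y = tw Q (tw Q' y)
  chr : ∀ Q y P, Chr y.1 P → Chr (tw Q y).1 P
  η : ∀ Q y, (tw Q y).1.η = y.1.η

/-- the data of a loop at an object: `G` is a smooth automorphism of determinant one, equal to `1`
near the pole, with `G⁻¹ db G = B` -/
structure Lg (A : At C) (z : Dat C A.N n) (B G : Fm A (Mn n)) : Prop where
  sm : A.Sm ∞ G
  det : ∀ i, ∀ w ∈ ball (0 : ℂ) A.R, (G i w).det = 1
  one : Zx A z.x G 1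
  tr : ∀ i j, ∀ w ∈ A.O i j, G i w * z.g i j w = z.g i j w * G j (A.tr i j w)
  com : ∀ i, ∀ w ∈ ball (0 : ℂ) A.R, G i w * z.a i w = z.a i w * G i w
  eq : ∀ i, ∀ w ∈ ball (0 : ℂ) A.R, db (G i) w = G i w * B i w

/-- the pairing of two loops at an object -/
def pairing (A : At C) (B G B' G' : Fm A (Mn n)) : ℂ := A.int fun i w =>
  ((G i w)⁻¹ * dz (G i) w * B' i w).trace - (B i w * ((G' i w)⁻¹ * dz (G' i) w)).trace

/-- loops which are trivial near `x` -/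
def Tx {P : Fm A ℂ[X]} (x : C) (L : Loop A P) : Prop :=
  Zx A x (L.F) (fun _ => 1) ∧ Zx A x (L.a) 0 ∧ Zx A x (L.b) 0

variable (A l n)

/-- **TW**: the twists exist -/
def TW : Prop := ∀ (d : ℤ), Std A l n d → KUR n A l → ∀ (τ : Ty n) (x : C),
  ∃ tw : Twd A n x → M0 A l τ x → M0 A l τ x, IsTw tw

/-- **HERM**: loops on the spectral cover as polynomials in the Higgs field -/
def HERM : Prop := ∀ (x : C) (P : Fm A ℂ[X]), 0 < n →
  (∀ i, ∀ w ∈ off A x i, (P i w).Monic ∧ (P i w).natDegree = n) →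
  (∀ i j, ∀ w ∈ A.O i j, (A.e i).symm w ≠ x → P i w = (P j (A.tr i j w)).scaleRoots (A.d i j w)) →
  ∃ (Q : {L : Loop A P // Tx x L} → Twd A n x) (γ : {L : Loop A P // Tx x L} → Fin n → Fm A ℂ),
    ∀ (r : ℝ) (h1 : 1 < r) (h2 : r ≤ A.R) (z : Dat C A.N n), Good (A.res r h1 h2) l z →
      z.lam = 0 → z.x = x → (∀ i, ∀ w ∈ off (A.res r h1 h2) x i, (z.a i w).charpoly = P i w) →
      (∀ L, Lg (A.res r h1 h2) z (Bq (Q L).1 z.a) (pl (γ L) z.a)) ∧
      ∀ L L', pairing A (Bq (Q L).1 z.a) (pl (γ L) z.a) (Bq (Q L').1 z.a) (pl (γ L') z.a) =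
        L.1.Q L'.1

/-- **PER**: the twist by the logarithmic derivative of an automorphism is trivial -/
def PER : Prop := ∀ (τ : Ty n) (x : C) (tw : Twd A n x → M0 A l τ x → M0 A l τ x), IsTw tw →
  ∀ (Q : Twd A n x) (y : M0 A l τ x) (z : Ob A l τ) (r : ℝ) (h1 : 1 < r) (h2 : r ≤ A.R)
    (G : Fm A (Mn n)), z.pt = y.1 → Good (A.res r h1 h2) l z.1 →
    Lg (A.res r h1 h2) z.1 (Bq Q.1 z.1.a) G → tw Q y = y

/-- A complex structure on `Y` for which `h` is holomorphic, and a flow which contracts the base. -/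
structure Hg {Y V : Type} [TopologicalSpace Y] [AddCommGroup V] [Module ℂ V] [TopologicalSpace V]
    (h : Y → V) where
  d : ℕ
  cs : ChartedSpace (Cm d) Y
  mf : IsManifold 𝓘(ℂ, Cm d) ω Y
  hol : ∀ (φ : V →ₗ[ℂ] ℂ) (y : Y), P277Z.Hol d (fun y => φ (h y)) y
  φ : ℝ → Y → Y
  δ : ℝ → V → V
  flo : Flo φ
  flo' : Flo δ
  eqv : ∀ t y, h (φ t y) = δ t (h y)
  fix : ∀ t, δ t 0 = 0
  ctr : ∀ K, IsCompact K → ∀ U ∈ 𝓝 (0 : V), ∀ᶠ t in atBot, MapsTo (δ t) K U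
  exp : ∀ v ≠ 0, ∀ K, IsCompact K → ∀ᶠ t in atTop, δ t v ∉ K

/-- **CX**: the complex structure on the space of Higgs bundles -/
def CX : Prop := ∀ (d : ℤ), Std A l n d → KUR n A l → NICE n A l → ∀ (τ : Ty n) (x : C) (R : ℕ)
  (V : Type) [AddCommGroup V] [Module ℂ V] [TopologicalSpace V] [IsTopologicalAddGroup V]
  [ContinuousSMul ℂ V] [T2Space V] [FiniteDimensional ℂ V] (D : Sys A V n) (h : M0 A l τ x → V),
  τ.q = ⊥ → (∀ y, Chr y.1 (D.P (h y))) →
  (∀ (v : V) (s : ℂ), ∃ v', ∀ k < n, ∀ i w, D.c k v' i w = s ^ (n - k) * D.c k v i w) →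
  (∀ y : M0 A l τ x, ∃ e : OpenPartialHomeomorph (M0 A l τ x) (Cm R), y ∈ e.source) →
  Nonempty (Hg h)

end Vale.Agent.P275PG
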