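import Vale.Agent.P275PG.Cx
import Vale.Agent.P275RS.Res

/-!
# P275, block PG: the stalk of the direct image is the cohomology of the fibre
-/

set_option linter.unusedSectionVars false
set_option backward.isDefEq.respectTransparency false

open scoped Topology
open Set Filter CategoryTheory TopologicalSpace CochainComplex.HomComplex

noncomputable section

namespace Vale.Agent.P275PG

open Vale.Agent.P275Z P275S
open P275PA (OntoF elF Eqv Gv)
open P275CL (Onto)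

variable {X Y : TopCat.{0}}

theorem gm_bij (c : X ⟶ Y) (a : Y) (hc : ∀ x, c x = a) (E : Sh ℂ X) :
    Function.Bijective (gm ((push ℂ c).obj E) (U := ⊤) (x := a) trivial) := by
  have key : ∀ U : Opens Y, a ∈ U → (Opens.map c).obj ⊤ ≤ (Opens.map c).obj U := fun U hU x _ => by
    change c x ∈ U
    rwa [hc]
  refine ⟨(injective_iff_map_eq_zero _).2 fun s hs => ?_, fun z => ?_⟩
  · obtain ⟨V, hV, ha, h0⟩ := (gm_eq_zero _ _ s).1 hs
    have := congrArg (res E (key V ha)) h0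
    rw [res_push, res_res] at this
    exact (res_self E _ s).symm.trans (this.trans (map_zero _))
  · obtain ⟨U, -, ha, s, rfl⟩ := exists_gm _ z (W := ⊤) trivial
    refine ⟨res E (key U ha) s, ?_⟩
    rw [← gm_res _ le_top ha, res_push]
    exact congrArg _ ((res_res E _ _ s).trans (res_self E _ s))

theorem d_gm {G : Cx ℂ Y} (a : Y) {m : ℤ} {s : sec (G.X m) ⊤} (hs : app (G.d m (m + 1)) ⊤ s = 0) :
    ((Stk ℂ a).map (G.d m (m + 1))).hom (gm _ (U := ⊤) trivial s) = 0 := by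
  rw [stk_map_gm, hs, map_zero]

/-- the germ of `1` -/
def oS (a : Y) : P275PA.pt ℂ ⟶ (KG.map ℂ (Stk ℂ a)).obj (kk ℂ Y) :=
  elF (Stk ℂ a) (F := cstAt ℂ Y 0) (m := 0) (gm _ (U := ⊤) trivial (one0 ℂ Y)) (d_gm a d_one0)

theorem oS_gcl (a : Y) {G : Cx ℂ Y} {m : ℤ} (s : sec (G.X m) ⊤)
    (hs : app (G.d m (m + 1)) ⊤ s = 0) : oS a ≫ (KG.map ℂ (Stk ℂ a)).map (gcl s hs) =
      elF (Stk ℂ a) (gm _ (U := ⊤) trivial s) (d_gm a hs) := by
  have e2 : app ((Cocycle.fromSingleMk (secHom s) (zero_add m) (m + 1) rfl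
      (by rw [secHom_comp, hs, secHom_zero]) : Cocycle (cstAt ℂ Y 0) G m).1.v 0 m (zero_add m))
      ⊤ (one0 ℂ Y) = s := by
    rw [Cocycle.fromSingleMk_coe, Cochain.fromSingleMk_v]
    exact (congrArg (fun g => app g ⊤ (cstOne ℂ ⊤)) (Iso.inv_hom_id_assoc _ _)).trans
      (secHom_one s)
  rw [gcl, KG.map_mk]
  refine (P275PA.el_comp_mk (M := (mapC (Stk ℂ a)).obj (cstAt ℂ Y 0)) _ (zero_add m) _
    (d_gm a d_one0)).trans (P275PA.el_congr (M := (mapC (Stk ℂ a)).obj G) ?_ _ _)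
  exact (stk_map_gm _ _ _).trans (congrArg _ e2)

theorem eqv_const (c : X ⟶ Y) (a : Y) (hc : ∀ x, c x = a) {e : H ℂ X} (he : e ∈ Hd ℂ X 2) :
    Eqv ((Linear.leftComp ℂ _ (oS a)) ∘ₗ (KG.map ℂ (Stk ℂ a)).mapLinearMap ℂ ∘ₗ (evK c).toLinearMap)
      (Hd ℂ X) (Gv (Stk ℂ a) (K ℂ c)) (LinearMap.mulLeft ℂ e) (P275PA.act (Stk ℂ a) _ (mul c e)) where
  he _ _ hv := mul_mem_Hd (add_comm _ _) he hv
  comm v := by
    change oS a ≫ (KG.map ℂ (Stk ℂ a)).map (evK c (e * v)) =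
      (oS a ≫ (KG.map ℂ (Stk ℂ a)).map (evK c v)) ≫ (KG.map ℂ (Stk ℂ a)).map (mul c e)
    rw [← evK_mul, Functor.map_comp, Category.assoc]
  mem m v hv := KG.comp_mem_deg (zero_add m) (P275PA.elF_mem _ _ _)
    (KG.map_mem_deg _ ((evK_mem_iff c).2 hv))
  inj m v hv h0 := by
    obtain ⟨s, hs, e⟩ := exists_gcl (F := (pushC ℂ c).obj (I ℂ X)) ((evK_mem_iff c).2 hv)
    change oS a ≫ (KG.map ℂ (Stk ℂ a)).map (evK c v) = 0 at h0
    rw [← e, oS_gcl, P275PA.elF_eq_zero_iff] at h0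
    obtain ⟨y, hy⟩ := h0
    obtain ⟨t, rfl⟩ := (gm_bij c a hc _).2 y
    rw [← (evK c).map_eq_zero_iff, ← e, gcl_eq_zero_iff _ _ (m - 1) (by simp)]
    exact ⟨t, (gm_bij c a hc _).1 ((stk_map_gm _ _ _).symm.trans hy)⟩
  surj m w hw := by
    obtain ⟨x, hx, rfl⟩ := P275PA.exists_elF (F := (pushC ℂ c).obj (I ℂ X)) _ hw
    obtain ⟨s, rfl⟩ := (gm_bij c a hc _).2 x
    have hs : app (((pushC ℂ c).obj (I ℂ X)).d m (m + 1)) ⊤ s = 0 :=
      (gm_bij c a hc _).1 (((stk_map_gm _ _ _).symm.trans hx).trans (map_zero _).symm)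
    refine ⟨(evK c).symm (gcl s hs), (evK_mem_iff c).1 ?_, ?_⟩
    · rw [LinearEquiv.apply_symm_apply]
      exact gcl_mem (F := (pushC ℂ c).obj (I ℂ X)) s hs
    · change oS a ≫ (KG.map ℂ (Stk ℂ a)).map (evK c ((evK c).symm (gcl s hs))) = _
      rw [LinearEquiv.apply_symm_apply, oS_gcl]
      rfl

/-- proper base change -/
theorem fib2 {Y V : Type} [TopologicalSpace Y] [TopologicalSpace V] [Nice (TopCat.of Y)]
    [T1Space V] (h : C(Y, V)) {e : H ℂ (TopCat.of Y)} (he : e ∈ Hd ℂ _ 2) (a : V) (c : ℤ)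
    (hp : IsProperMap h) (ho : Onto (Hd ℂ (TopCat.of {y // h y = a}))
      (LinearMap.mulLeft ℂ (pbc (val fun y => h y = a) e)) c) :
    OntoF (Stk ℂ (X := TopCat.of V) a) (mulK (TopCat.ofHom h) e) c := by
  let i := TopCat.ofHom (val fun y => h y = a)
  have q : P275RS.Cl (TopCat.ofHom h) {a} i :=
    ⟨hp, isClosed_singleton, Topology.IsInducing.subtypeVal, Subtype.range_coe⟩
  have := (qisAt_iff_stk _ _).1 (q.qis (k := ℂ) (a := a) rfl)
  refine (P275PA.ontoF_iff (Stk ℂ (X := TopCat.of V) a) ((pushC ℂ _).map (pullC ℂ i))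
    (e := mul (i ≫ TopCat.ofHom h) (pb i e)) (mul_mem _ he) ?_ c).2
    (((eqv_const (i ≫ TopCat.ofHom h) a (fun y => y.2) (pb_mem i he)).onto_iff c).1 ho)
  rw [← pull_eq_hom]
  exact (pull_mul i _ e).symm

end Vale.Agent.P275PG
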