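import Vale.Agent.P275PG.Sys
import Vale.Agent.P275HM.Main
import Vale.Agent.P275TW.Main
import Vale.Agent.P275CX.Main
import Vale.Agent.P275LO.Main

/-!
# P275, block PG: the support estimate
-/

namespace Vale.Agent.P275PG

theorem supp' : SUPP := supp (fun _ _ A l n => P275TW.tw A l n) (fun _ _ _ A l n => P275HM.herm A l n)
  (fun _ _ _ A l n => P275TW.per A l n) (fun _ _ A l n => P275CX.cx2 A l n) P275LO.loop

end Vale.Agent.P275PG
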