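import Vale.Agent.P275PG.Fib
import Vale.Agent.P275MB.Iso
import Vale.Agent.P275ZA.Zar
import Vale.Agent.P275DP.Dim
import Vale.Agent.P275FD.Main
import Vale.Agent.P275DL.Fin

/-!
# P275, block PG: the support estimate from the blocks
-/

set_option linter.unusedSectionVars false
set_option backward.isDefEq.respectTransparency false

open scoped Topology Polynomial Real
open Set Filter Metric

noncomputable section

namespace Vale.Agent.P275PG

open Vale.Agent.P275GC Vale.Agent.P275MO Vale.Agent.P275Z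
open Vale.Agent.P275NA (Fm Cy Mn)
open Vale.Agent.P275DL (Loop Sys Rk mon)
open Vale.Agent.P275ST (XB Base ZarLE deg dimR)
open P275S (H Hd pb Nice Stk)

theorem exists_circ {F G : Type} [TopologicalSpace F] [TopologicalSpace G] {Φ : ℝ × F → G}
    (hc : Continuous Φ) (hp : ∀ (s : ℝ) (k : ℤ) y, Φ (s + k, y) = Φ (s, y)) :
    ∃ φ : C(Circle × F, G), ∀ s y, φ (Circle.exp (2 * π * s), y) = Φ (s, y) := by
  have h2 : (2 * π : ℝ) ≠ 0 := by positivity
  have key : ∀ s y, Φ (Complex.arg (Circle.exp (2 * π * s)) / (2 * π), y) = Φ (s, y) := by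
    intro s y
    obtain ⟨k, hk⟩ := Circle.exp_eq_exp.1 (Circle.exp_arg (Circle.exp (2 * π * s)))
    rw [hk, ← hp s k y]
    congr 2
    field_simp
  have q : IsOpenQuotientMap (Prod.map Circle.exp (id : F → F)) :=
    IsOpenQuotientMap.prodMap ⟨Circle.exp_surjective, Circle.exp.continuous,
      Circle.isCoveringMap_exp.isOpenMap⟩ .id
  refine ⟨⟨fun p => Φ (Complex.arg p.1 / (2 * π), p.2), q.isQuotientMap.continuous_iff.2 ?_⟩, key⟩
  have : Continuous fun p : ℝ × F => Φ (p.1 / (2 * π), p.2) := by fun_prop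
  refine this.congr fun p => ?_
  rw [← key]
  simp [mul_div_cancel₀ _ h2]

theorem coeff_mon {n k : ℕ} (c : ℕ → ℂ) (hk : k < n) : (mon n c).coeff k = c k := by
  simp [mon, Polynomial.coeff_X_pow, hk.ne, hk]

theorem coeff_mon' {n k : ℕ} (c : ℕ → ℂ) (hk : n ≤ k) :
    (mon n c).coeff k = if k = n then 1 else 0 := by
  simp [mon, Polynomial.coeff_X_pow, hk.not_gt]

theorem natDegree_mon (n : ℕ) (c : ℕ → ℂ) : (mon n c).natDegree = n :=
  Polynomial.natDegree_eq_of_le_of_coeff_ne_zero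
    (Polynomial.natDegree_le_iff_coeff_eq_zero.2 fun k hk => by simp [coeff_mon' c hk.le, hk.ne'])
    (by simp [coeff_mon' c le_rfl])

theorem monic_mon (n : ℕ) (c : ℕ → ℂ) : (mon n c).Monic := by
  rw [Polynomial.Monic, Polynomial.leadingCoeff, natDegree_mon, coeff_mon' c le_rfl, if_pos rfl]

theorem mon_scale {n : ℕ} {c c' : ℕ → ℂ} {d : ℂ} (h : ∀ k < n, c k = d ^ (n - k) • c' k) :
    mon n c = (mon n c').scaleRoots d := by
  ext k
  rw [Polynomial.coeff_scaleRoots, natDegree_mon]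
  rcases lt_or_ge k n with a | a
  · rw [coeff_mon _ a, coeff_mon _ a, h k a, smul_eq_mul, mul_comm]
  · simp [coeff_mon' _ a, Nat.sub_eq_zero_of_le a]

variable {C : Type} [TopologicalSpace C] {n : ℕ} {A : At C} {l : Cy A ℂ} {τ : Ty n} {x : C}

theorem chr_inj {V : Type} [AddCommGroup V] [Module ℂ V] (D : Sys A V n) {y : Mod A l τ} {v v' : V}
    (h : Chr y (D.P v)) (h' : Chr y (D.P v')) : v = v' := by
  obtain ⟨z, rfl⟩ := pt_surj y
  obtain ⟨r, h1, h2, g⟩ := P275MB.Ob.ex z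
  refine sub_eq_zero.1 (D.inj _ fun k hk i => ?_)
  have hR : (0 : ℂ) ∈ ball (0 : ℂ) A.R := mem_ball_self (zero_lt_one.trans A.hR)
  refine ((D.hl k _ i).analyticOnNhd isOpen_ball).eqOn_zero_of_preconnected_of_frequently_eq_zero
    (convex_ball _ _).isPreconnected hR (Eventually.frequently ?_)
  have e1 : ∀ᶠ w in 𝓝[≠] (0 : ℂ), w ≠ A.e i z.1.x := by
    by_cases e : A.e i z.1.x = 0
    · rw [e]
      exact self_mem_nhdsWithin
    · exact nhdsWithin_le_nhds (eventually_ne_nhds (Ne.symm e))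
  filter_upwards [e1, nhdsWithin_le_nhds (ball_mem_nhds (0 : ℂ) (zero_lt_one.trans h1))] with w a b
  have o : w ∈ off (A.res r h1 h2) z.1.x i := ⟨b, fun e => a (by
    rw [← e]
    exact ((A.e i).right_inv (A.tgt i ▸ ball_subset_ball h2 b)).symm)⟩
  have := congrArg (·.coeff k) ((h z r h1 h2 rfl g i w o).symm.trans (h' z r h1 h2 rfl g i w o))
  simp only [Sys.P, coeff_mon _ hk] at this
  simp [this]

theorem Q_skew {P : Fm A ℂ[X]} (L L' : Loop A P) : L.Q L' = -L'.Q L := by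
  simp only [Loop.Q, At.int, ← Finset.sum_neg_distrib, ← MeasureTheory.integral_neg, ← smul_neg,
    ← Multiset.sum_map_neg]
  refine Finset.sum_congr rfl fun i _ => congrArg _ (funext fun z => congrArg _
    (congrArg _ (Multiset.map_congr rfl fun y _ => ?_)))
  ring

theorem IsTw.per {tw : Twd A n x → M0 A l τ x → M0 A l τ x} (h : IsTw tw) {Q : Twd A n x}
    {y : M0 A l τ x} (hy : tw Q y = y) (k : ℤ) : tw ((k : ℂ) • Q) y = y := by
  induction k using Int.induction_on with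
  | zero => simpa using h.zero y
  | succ k ih =>
    rw [Int.cast_add, add_smul, h.add, Int.cast_one, one_smul, hy, ih]
  | pred k ih =>
    have e : tw (-Q) y = y := by
      conv_lhs => rw [← hy, ← h.add, neg_add_cancel, h.zero]
    rw [Int.cast_sub, sub_eq_add_neg, add_smul, h.add, Int.cast_one, neg_one_smul, e, ih]

/-- transport along a homeomorphism -/
def Hg2.homeo {Y Y' V : Type} [TopologicalSpace Y] [TopologicalSpace Y'] [AddCommGroup V]
    [Module ℂ V] [TopologicalSpace V] {h : Y → V} (ν : Y' ≃ₜ Y) (G : Hg2 fun y => h (ν y)) :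
    Hg2 h where
  H := G.H.homeo ν
  cov y := let ⟨m, e, a, b⟩ := G.cov (ν.symm y); ⟨m, _, ⟨e, a, rfl⟩, b⟩
  hol φ m := by
    rintro _ ⟨e, a, rfl⟩ y b
    exact G.hol φ m e a (ν.symm y) b
  φ t y := ν (G.φ t (ν.symm y))
  Ψ := G.Ψ
  scal := G.scal.homeo ν

theorem pbc_comp {Y Y' Y'' : Type} [TopologicalSpace Y] [TopologicalSpace Y'] [TopologicalSpace Y'']
    (f : C(Y', Y)) (g : C(Y'', Y')) (a : H ℂ (TopCat.of Y)) :
    pbc g (pbc f a) = pbc (f.comp g) a := P275S.pb_comp _ _ a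

theorem loops {S : Sit} {h : C(XB S.g S.n (deg S.D), Base S.C S.n)} (M : Mdl S h)
    {tw : Twd M.A S.n S.p → M0 M.A M.l M.τ S.p → M0 M.A M.l M.τ S.p} (ht : IsTw tw)
    (h2 : HERM S.n M.A M.l) (h3 : PER S.n M.A M.l) {e : H ℂ (TX S.g S.n (deg S.D))}
    (hn : M.Num e) : ∃ κ, κ ≠ 0 ∧ ∀ a, Nonempty (Loops {y // h y = a} (pbc (val _) e)
      (fun L L' : {L : Loop M.A (M.D.P a) // Tx S.p L} => L.1.Q L'.1) κ) := by
  obtain ⟨e', κ, hκ, hN, he⟩ := hn
  refine ⟨κ, hκ, fun a => ?_⟩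
  obtain ⟨Q, γ, hQ⟩ := h2 S.p (M.D.P a) (by have := S.adm.hn; omega)
    (fun _ _ _ => ⟨monic_mon _ _, natDegree_mon _ _⟩)
    (fun i j w hw _ => mon_scale fun k hk => M.D.sec k hk a i j w hw)
  have hc : ∀ y : {y // h y = a}, Chr (M.ν.symm y.1).1 (M.D.P a) := fun y => by
    have := M.chr (M.ν.symm y.1)
    rwa [Homeomorph.apply_symm_apply, y.2] at this
  have hf : ∀ q (y : {y // h y = a}), h (M.ν (tw q (M.ν.symm y.1))) = a := fun q y =>
    chr_inj M.D (M.chr _) (ht.chr q _ _ (hc y))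
  have rep : ∀ y : {y // h y = a}, ∃ (z : Ob M.A M.l M.τ) (r : ℝ) (h1 : 1 < r) (h2 : r ≤ M.A.R),
      z.pt = (M.ν.symm y.1).1 ∧ Good (M.A.res r h1 h2) M.l z.1 ∧
      (∀ L, Lg (M.A.res r h1 h2) z.1 (Bq (Q L).1 z.1.a) (pl (γ L) z.1.a)) ∧
      ∀ L L' : {L : Loop M.A (M.D.P a) // Tx S.p L}, pairing M.A (Bq (Q L).1 z.1.a) (pl (γ L) z.1.a) (Bq (Q L').1 z.1.a)
        (pl (γ L') z.1.a) = L.1.Q L'.1 := fun y => by
    obtain ⟨z, hz⟩ := pt_surj (M.ν.symm y.1).1
    obtain ⟨r, h1, h2, g⟩ := P275MB.Ob.ex z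
    have e1 : z.1.lam = 0 := (congrArg Mod.lam hz).trans (M.ν.symm y.1).2.1
    have e2 : z.1.x = S.p := (congrArg Mod.x hz).trans (M.ν.symm y.1).2.2
    exact ⟨z, r, h1, h2, hz, g, hQ r h1 h2 z.1 g e1 e2 (e2 ▸ hc y z r h1 h2 hz g)⟩
  have ex : ∀ L, ∃ φ : C(Circle × {y // h y = a}, {y // h y = a}), ∀ (s : ℝ) y,
      φ (Circle.exp (2 * π * s), y) = ⟨M.ν (tw ((s : ℂ) • Q L) (M.ν.symm y.1)), hf _ y⟩ := by
    intro L
    refine exists_circ (Φ := fun p : ℝ × {y // h y = a} =>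
      (⟨M.ν (tw ((p.1 : ℂ) • Q L) (M.ν.symm p.2.1)), hf _ p.2⟩ : {y // h y = a})) ?_ fun s k y => Subtype.ext ?_
    · refine (M.ν.continuous.comp ?_).subtype_mk _
      have := (ht.cont 1 fun _ => Q L).comp (f := fun p : ℝ × {y // h y = a} =>
        (fun _ => p.1, M.ν.symm p.2.1)) (by fun_prop)
      simpa [Function.comp_def] using this
    · obtain ⟨z, r, h1, h2, a1, a2, a3, -⟩ := rep y
      have := ht.per (h3 _ _ tw ht (Q L) _ z r h1 h2 _ a1 a2 (a3 L)) k
      simp only [Complex.ofReal_add, Complex.ofReal_intCast, add_smul, ht.add, this]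
  choose φ hφ using ex
  refine ⟨⟨φ, fun L y => ?_, fun L L' y ψ hψ => ?_⟩⟩
  · have := hφ L 0 y
    simp only [mul_zero, Circle.exp_zero, Complex.ofReal_zero, zero_smul, ht.zero,
      Homeomorph.apply_symm_apply] at this
    exact this
  · obtain ⟨z, r, h1, h2, a1, a2, a3, a4⟩ := rep y
    let μ : C(XB S.g S.n (deg S.D), M0 M.A M.l M.τ S.p) := ⟨M.ν.symm, M.ν.symm.continuous⟩
    have e1 := congrArg (pbc ((μ.comp (val fun y => h y = a)).comp ψ)) he
    rw [pbc_comp, pbc_comp, hN _ tw ht (Q L) (Q L') (γ L) (γ L') _ z r h1 h2 a1 a2 (a3 L) (a3 L') _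
      fun s t => ?_, a4] at e1
    · rw [pbc_comp, ← e1]
      exact congrArg (pbc · e) (ContinuousMap.ext fun p => (M.ν.apply_symm_apply _).symm)
    · change (M.ν.symm (ψ _).1).1 = _
      rw [hψ, hφ, hφ]
      simp only [Homeomorph.symm_apply_apply]
      rw [← ht.add, add_comm]

/-- **The support estimate** -/
theorem supp
    (h1 : ∀ (C : Type) [TopologicalSpace C] (A : At C) (l : Cy A ℂ) (n : ℕ), TW n A l)
    (h2 : ∀ (C : Type) [TopologicalSpace C] [T2Space C] (A : At C) (l : Cy A ℂ) (n : ℕ), HERM n A l)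
    (h3 : ∀ (C : Type) [TopologicalSpace C] [T2Space C] (A : At C) (l : Cy A ℂ) (n : ℕ), PER n A l)
    (h4 : ∀ (C : Type) [TopologicalSpace C] (A : At C) (l : Cy A ℂ) (n : ℕ), CX2 A l n)
    (h5 : LOOP) : SUPP := by
  intro S h M K e hp hfd hK hN he hn hC c
  obtain ⟨tw, ht⟩ := h1 _ M.A M.l S.n _ M.std hK M.τ S.p
  obtain ⟨κ, hκ, hL⟩ := loops M ht (h2 _ _ _ _) (h3 _ _ _ _) hn
  obtain ⟨G⟩ := h4 _ M.A M.l S.n _ M.std hK M.τ S.p _ M.D (fun y => h (M.ν y)) M.hq M.chr M.scal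
  obtain ⟨t2, lc, sc⟩ := hN M.τ
  have cl : IsClosed {y : Mod M.A M.l M.τ | y.lam = 0 ∧ y.x = S.p} :=
    (isClosed_eq P275MB.cont_lam continuous_const).inter
      (isClosed_eq P275MB.cont_x continuous_const)
  have lc' : LocallyCompactSpace (M0 M.A M.l M.τ S.p) := cl.locallyCompactSpace
  have sc' : SecondCountableTopology (M0 M.A M.l M.τ S.p) :=
    Topology.IsEmbedding.subtypeVal.secondCountableTopology
  have nX : Nice (TopCat.of (XB S.g S.n (deg S.D))) :=
    ⟨M.ν.symm.isOpenEmbedding.locallyCompactSpace, M.ν.t2Space,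
      M.ν.symm.secondCountableTopology⟩
  obtain ⟨Z, hZ, hR⟩ := P275DL.deltap S.C M.A S.p _ S.n M.D (by have := S.adm.hn; omega) M.mer
    (2 * dimR S.g S.n - c : ℤ).toNat
  refine ⟨Z, ?_, fun a ha => ?_⟩
  · rcases le_or_gt c (2 * dimR S.g S.n) with b | b
    · exact P275ZA.zarLE_le hZ (by omega)
    · rw [P275ZA.zarLE_neg (by omega) hZ]
      exact P275ZA.zarLE_empty _
  · have := nX.lc
    have := nX.t2
    have := nX.sc
    have nF : Nice (TopCat.of {y // h y = a}) :=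
      ⟨(isClosed_eq h.continuous continuous_const).locallyCompactSpace,
        inferInstanceAs (T2Space {y // h y = a}),
        Topology.IsEmbedding.subtypeVal.secondCountableTopology⟩
    refine fib2 h he a c hp ((h5 _ _ _ _ κ _ _ (P275S.pb_mem _ he) hκ (fun _ _ => Q_skew _ _) (hL a)
      (hR a ha) (fd2 (P275FD.top P275DP.dimp) hp (G.homeo M.ν) (van _ _ _ K e he hC) a)).mono ?_)
    omega

end Vale.Agent.P275PG
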