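import Vale.Agent.P275PG.Sup
import Vale.Agent.P275Z.Mid
import Vale.Agent.P275AD.Gau
import Vale.Agent.P275RR.Frame

/-!
# P275, block PG: the Hitchin base as a linear system of polynomials
-/

set_option linter.unusedSectionVars false

open scoped Topology Polynomial Matrix.Norms.Operator
open Set Filter Metric

noncomputable section

namespace Vale.Agent.P275PG

open Vale.Agent.P275GC Vale.Agent.P275MO Vale.Agent.P275Z Vale.Agent.P275AD
open Vale.Agent.P275NA (Fm Cy Mn)
open Vale.Agent.P275DL (Sys mon)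
open Vale.Agent.P275ST (Base)

variable {C : Type} [TopologicalSpace C] {n : ℕ} {A : At C} {l : Cy A ℂ} {τ : Ty n}

theorem cp_deg (M : Mn n) : M.charpoly.natDegree = n := by simp

theorem cp_scale (c : ℂ) (M : Mn n) : (c • M).charpoly = M.charpoly.scaleRoots c := by
  ext k
  rw [Polynomial.coeff_scaleRoots, cp_deg]
  rcases le_or_gt k n with a | a
  · have := cp_smul (Nat.sub_le n k) c M
    rwa [Nat.sub_sub_self a, mul_comm] at this
  · rw [Polynomial.coeff_eq_zero_of_natDegree_lt (by rwa [cp_deg]),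
      Polynomial.coeff_eq_zero_of_natDegree_lt (by rwa [cp_deg]), zero_mul]

/-- the characteristic polynomial is seen on the unit discs of one representative -/
theorem chr_of {P : Fm A ℂ[X]}
    (hP : ∀ i j, ∀ w ∈ A.O i j, P i w = (P j (A.tr i j w)).scaleRoots (A.d i j w))
    {z : Ob A l τ} (h0 : z.1.lam = 0)
    (h : ∀ i w, ‖w‖ < 1 → (A.e i).symm w ≠ z.1.x → (z.1.a i w).charpoly = P i w) : Chr z.pt P := by
  intro z' r h1 h2 e g i w hw
  obtain ⟨s, b1, b2, φ, _, -, f⟩ := P275MB.pt_eq_iff.1 e.symm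
  obtain ⟨j, a, b⟩ := A.cov ((A.e i).symm w)
  have o : w ∈ (A.res r h1 h2).O i j :=
    At.res_O.2 ⟨⟨ball_subset_ball h2 hw.1, a⟩, hw.1, P275MB.unit_r h1 b⟩
  have o' := (At.res_O.1 o).1
  have n1 : (A.e j).symm (A.tr i j w) ≠ z.1.x := by
    rw [At.symm_tr o', ← f.x]
    exact hw.2
  have c1 := f.con j (A.tr i j w) ⟨P275MB.unit_r b1 b, n1⟩
  have c2 := P275MB.Good.law' g o hw.2
  simp only [f.lam, h0, zero_smul, zero_add, add_zero, zero_mul, mul_zero,
    ← Matrix.mul_smul] at c1 c2
  rw [← cp_conj (cc_det g.cc o) c2.symm, cp_scale, hP i j w o', ← h j (A.tr i j w) b n1,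
    cp_conj (f.det j _ (P275MB.unit_r b1 b)) c1.symm]
  rfl

variable [ChartedSpace ℂ C]

/-- the coefficients of the polynomial of a point of the base -/
def cB (A : At C) (n m : ℕ) : Base C n →ₗ[ℂ] Fm A ℂ where
  toFun b := ∑ k : Fin (n - 1), if m + (k + 2) = n then cf A (k + 2) (b k) else 0
  map_add' b b' := by
    rw [← Finset.sum_add_distrib]
    refine Finset.sum_congr rfl fun k _ => ?_
    split_ifs
    · funext i w
      simp [cf, mul_add]
    · simp
  map_smul' c b := by
    rw [Finset.smul_sum]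
    refine Finset.sum_congr rfl fun k _ => ?_
    split_ifs
    · funext i w
      simp [cf, mul_left_comm]
    · simp

theorem cB_eq (b : Base C n) (k : Fin (n - 1)) {m : ℕ} (h : m + (k + 2) = n) :
    cB A n m b = cf A (k + 2) (b k) := by
  change ∑ _ : Fin (n - 1), _ = _
  rw [Finset.sum_eq_single k (fun j _ hj => if_neg fun e => hj (Fin.ext (by omega))) (by simp),
    if_pos h]

theorem cB_zero (b : Base C n) {m : ℕ} (h : n ≤ m + 1) : cB A n m b = 0 := by
  change ∑ _ : Fin (n - 1), _ = _
  exact Finset.sum_eq_zero fun k _ => if_neg (by omega)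

theorem cB_ind (m : ℕ) : n ≤ m + 1 ∨ ∃ k : Fin (n - 1), m + (k + 2) = n :=
  (le_or_gt n (m + 1)).imp id fun h => ⟨⟨n - m - 2, by omega⟩, by simp only; omega⟩

theorem sys : SYS := by
  intro S T
  refine ⟨P275RR.merP T.A S.p, ⟨cB T.A S.n, fun m v => ?_, fun m hm v => ?_,
    fun v => cB_zero v (by omega), fun v hv => base_ext T.ok fun k i z hz => ?_⟩,
    fun v s => ⟨fun k => s ^ ((k : ℕ) + 2) • v k, fun m hm i w => ?_⟩, ?_⟩
  · rcases cB_ind (n := S.n) m with a | ⟨k, a⟩
    · rw [cB_zero v a]
      exact fun _ => differentiableOn_const 0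
    · rw [cB_eq v k a]
      exact (mem_H0 T.ok).1 (v k).2
  · rcases cB_ind (n := S.n) m with a | ⟨k, a⟩
    · rw [cB_zero v a]
      exact fun _ _ _ _ => (smul_zero _).symm
    · rw [cB_eq v k a, show S.n - m = k + 2 by omega]
      exact cf_sec T.ok _ _
  · have := k.2
    rw [← cB_eq v k (m := S.n - (k + 2)) (by omega), hv _ (by omega) i z hz]
    simp [cf]
  · rcases cB_ind (n := S.n) m with a | ⟨k, a⟩
    · simp [cB_zero _ a]
    · simp only [cB_eq _ k a, show S.n - m = k + 2 by omega]
      simp [cf, mul_left_comm]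
  · rintro E z b ⟨h0, r, h1, h2, a, σ, ad, ha⟩ hb
    refine chr_of (fun i j w hw => mon_scale fun m hm => ?_) h0 fun i w hw hx => ?_
    · rcases cB_ind (n := S.n) m with c | ⟨k, c⟩
      · simp [cB_zero _ c]
      · simp only [cB_eq _ k c, show S.n - m = k + 2 by omega]
        exact cf_tr T.ok hw
    · have u := P275MB.unit_r h1 hw
      rw [← ha i w ⟨u, hx⟩]
      ext m
      rcases lt_or_ge m S.n with c | c
      · refine Eq.trans ?_ (coeff_mon _ c).symm
        rcases cB_ind (n := S.n) m with c' | ⟨k, c'⟩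
        · have : Nonempty (Fin S.n) := ⟨⟨m, c⟩⟩
          have := Matrix.trace_eq_neg_charpoly_coeff (a i w)
          rw [Fintype.card_fin, show S.n - 1 = m by omega] at this
          simpa [cB_zero _ c'] using this.symm.trans (ad.trace T.ok.res u)
        · simp only [cB_eq _ k c']
          rw [show m = S.n - (k + 2) by omega]
          exact ((hit_iff T.ok.res ad b).1 hb k i w u).symm
      · refine Eq.trans ?_ (coeff_mon' _ c).symm
        split_ifs with e
        · have := (a i w).charpoly_monic.coeff_natDegree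
          rw [cp_deg] at this
          exact (congrArg _ e).trans this
        · exact Polynomial.coeff_eq_zero_of_natDegree_lt (by rw [cp_deg]; omega)

end Vale.Agent.P275PG
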